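import Vale.Agent.P088.R2.H948.Par

/-!
# Row ORT: the orthogonality identity for doubly harmonic functions
-/

open MeasureTheory Set
open scoped ContDiff Matrix Topology

noncomputable section

namespace Vale.Agent.P088.HY

open Vale.Agent.P088.LR

variable {n : ℕ}

/-- Linear combinations. -/
theorem pd_lin {I : Type*} [Fintype I] {f : V n → ℝ} {F : I → V n → ℝ} (c : I → ℝ) {x : V n}
    (hf : DifferentiableAt ℝ f x) (hF : ∀ a, DifferentiableAt ℝ (F a) x) (i : Fin n) :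
    pd i (fun x => f x - ∑ a, c a * F a x) x = pd i f x - ∑ a, c a * pd i (F a) x := by
  have h : HasFDerivAt (fun x => f x - ∑ a, c a * F a x)
      (fderiv ℝ f x - ∑ a, c a • fderiv ℝ (F a) x) x :=
    hf.hasFDerivAt.sub (HasFDerivAt.fun_sum fun a _ => (hF a).hasFDerivAt.const_mul (c a))
  show fderiv ℝ (fun x => f x - ∑ a, c a * F a x) x (Pi.single i 1) = _
  rw [h.fderiv]
  simp only [_root_.sub_apply, _root_.sum_apply, _root_.smul_apply, smul_eq_mul]
  rfl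

theorem sum_aux {I : Type*} [Fintype I] (S P : Fin n → Fin n → ℝ) (Q : I → Fin n → Fin n → ℝ)
    (c : I → ℝ) : ∑ i, ∑ j, S i j * (P i j - ∑ a, c a * Q a i j) =
      ∑ i, ∑ j, S i j * P i j - ∑ a, c a * ∑ i, ∑ j, S i j * Q a i j := by
  have h1 : ∀ a, c a * ∑ i, ∑ j, S i j * Q a i j = ∑ i, ∑ j, S i j * (c a * Q a i j) := by
    intro a
    rw [Finset.mul_sum]
    refine Finset.sum_congr rfl fun i _ => ?_
    rw [Finset.mul_sum]
    exact Finset.sum_congr rfl fun j _ => by ring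
  simp only [h1]
  rw [Finset.sum_comm (f := fun a i => ∑ j, S i j * (c a * Q a i j)), ← Finset.sum_sub_distrib]
  refine Finset.sum_congr rfl fun i _ => ?_
  rw [Finset.sum_comm (f := fun a j => S i j * (c a * Q a i j)), ← Finset.sum_sub_distrib]
  refine Finset.sum_congr rfl fun j _ => ?_
  rw [mul_sub, Finset.mul_sum]

theorem Lv_lin {I : Type*} [Fintype I] {f : V n → ℝ} {F : I → V n → ℝ} (c : I → ℝ)
    (hf : ContDiffOn ℝ ∞ f (Bn n)) (hF : ∀ a, ContDiffOn ℝ ∞ (F a) (Bn n)) (s : MF n) {x : V n}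
    (hx : x ∈ Bn n) :
    Lv s (fun x => f x - ∑ a, c a * F a x) x = Lv s f x - ∑ a, c a * Lv s (F a) x := by
  have h1 : ∀ i j, pd i (pd j (fun x => f x - ∑ a, c a * F a x)) x =
      pd i (pd j f) x - ∑ a, c a * pd i (pd j (F a)) x := by
    intro i j
    rw [pd_congrB (fun x' hx' => pd_lin c (dAtB hf hx') (fun a => dAtB (hF a) hx') j) hx]
    exact pd_lin c (dAtB (contDiffOn_pd isOpen_Bn hf j) hx)
      (fun a => dAtB (contDiffOn_pd isOpen_Bn (hF a) j) hx) i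
  unfold Lv
  simp only [h1]
  exact sum_aux (fun i j => s x i j) (fun i j => pd i (pd j f) x)
    (fun a i j => pd i (pd j (F a)) x) c

theorem memLp_Bc {f : V n → ℝ} (hf : ContinuousOn f (Bc n)) :
    MemLp f 2 (volume.restrict (Bc n)) := by
  have hfin : IsFiniteMeasure (volume.restrict (Bc n)) :=
    ⟨by rw [Measure.restrict_apply_univ]; exact isCompact_Bc.measure_lt_top⟩
  obtain ⟨B, hB⟩ := isCompact_Bc.exists_bound_of_continuousOn hf
  exact MemLp.of_bound (hf.aestronglyMeasurable measurableSet_Bc) B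
    ((ae_restrict_iff' measurableSet_Bc).2 (Filter.Eventually.of_forall hB))

/-- Finite nets in the `L²` sense. -/
theorem net {k : VV n → ℝ} (hk : ContDiffOn ℝ ∞ k (Un n)) {δ : ℝ} (hδ : 0 < δ) :
    ∃ t : Finset (V n), (∀ y ∈ t, y ∈ Bc n) ∧ ∀ y ∈ Bc n, ∃ y' ∈ t,
      ∫ x in Bc n, (k (x, y) - k (x, y')) ^ 2 ≤ δ ^ 2 := by
  set m := volume.real (Bc n) with hm
  have hm0 : 0 ≤ m := measureReal_nonneg
  have hδ' : 0 < δ / √(m + 1) := by positivity
  have hkc : ContinuousOn k (Bc n ×ˢ Bc n) :=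
    hk.continuousOn.mono (prod_mono Bc_subset Bc_subset)
  have huc := (isCompact_Bc.prod isCompact_Bc).uniformContinuousOn_of_continuous hkc
  rw [Metric.uniformContinuousOn_iff] at huc
  obtain ⟨ρ, hρ, hu⟩ := huc _ hδ'
  obtain ⟨t, ht, htf, hcov⟩ := (isCompact_Bc (n := n)).finite_cover_balls hρ
  refine ⟨htf.toFinset, fun y hy => ht (htf.mem_toFinset.1 hy), fun y hy => ?_⟩
  obtain ⟨y', hy', hyy⟩ := mem_iUnion₂.1 (hcov hy)
  refine ⟨y', htf.mem_toFinset.2 hy', ?_⟩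
  have h1 : ∀ x ∈ Bc n, (k (x, y) - k (x, y')) ^ 2 ≤ (δ / √(m + 1)) ^ 2 := by
    intro x hx
    have h2 := hu (x, y) ⟨hx, hy⟩ (x, y') ⟨hx, ht hy'⟩ (by
      rw [Prod.dist_eq, dist_self, max_eq_right dist_nonneg]; exact hyy)
    rw [Real.dist_eq] at h2
    exact sq_le_sq' (by linarith [(abs_lt.1 h2).1]) (abs_lt.1 h2).2.le
  have hc : ContinuousOn (fun x => (k (x, y) - k (x, y')) ^ 2) (Bc n) :=
    (((slice_x hk (Bc_subset hy)).continuousOn.mono Bc_subset).sub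
      ((slice_x hk (Bc_subset (ht hy'))).continuousOn.mono Bc_subset)).pow 2
  calc ∫ x in Bc n, (k (x, y) - k (x, y')) ^ 2 ≤ ∫ x in Bc n, (δ / √(m + 1)) ^ 2 :=
        setIntegral_mono_on (hc.integrableOn_compact isCompact_Bc)
          (integrableOn_const isCompact_Bc.measure_lt_top.ne) measurableSet_Bc h1
    _ = m * (δ / √(m + 1)) ^ 2 := by rw [setIntegral_const, smul_eq_mul]
    _ ≤ δ ^ 2 := by
        rw [div_pow, Real.sq_sqrt (by linarith), mul_div_assoc', div_le_iff₀ (by linarith)]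
        nlinarith [sq_nonneg δ]

/-- Approximation of `k` by sums of products of solutions; `R` is the remainder. -/
theorem approx {s₁ s₂ : MF n} {k : VV n → ℝ} (hk : ContDiffOn ℝ ∞ k (Un n))
    (h1 : ∀ z ∈ Un n, Lx s₁ k z = 0) (h2 : ∀ z ∈ Un n, Ly s₂ k z = 0) {δ : ℝ} (hδ : 0 < δ) :
    ∃ (d : ℕ) (e g : Fin d → V n → ℝ) (R : VV n → ℝ), (∀ a, ContDiffOn ℝ ∞ (e a) (Bn n)) ∧
      (∀ a, ContDiffOn ℝ ∞ (g a) (Bn n)) ∧ (∀ a, ∀ x ∈ Bn n, Lv s₁ (e a) x = 0) ∧
      (∀ a, ∀ x ∈ Bn n, Lv s₂ (g a) x = 0) ∧ ContDiffOn ℝ ∞ R (Un n) ∧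
      (∀ z, R z = k z - ∑ a, g a z.2 * e a z.1) ∧
      (∀ z ∈ Un n, Lx s₁ R z = 0) ∧ (∀ z ∈ Un n, Ly s₂ R z = 0) ∧
      ∀ y ∈ Bc n, ∫ x in Bc n, R (x, y) ^ 2 ≤ δ ^ 2 := by
  obtain ⟨t, ht, hnet⟩ := net hk hδ
  have hv : ∀ l : t, MemLp (fun x => k (x, (l : V n))) 2 (volume.restrict (Bc n)) := fun l =>
    memLp_Bc ((slice_x hk (Bc_subset (ht l l.2))).continuousOn.mono Bc_subset)
  obtain ⟨d, c, hc⟩ := R2.H948.proj_fun (volume.restrict (Bc n))
    (fun (l : t) x => k (x, (l : V n))) hv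
  have hes : ∀ a, ContDiffOn ℝ ∞ (fun x => ∑ l : t, c a l * k (x, (l : V n))) (Bn n) := fun a =>
    ContDiffOn.sum fun l _ => contDiffOn_const.mul (slice_x hk (Bc_subset (ht l l.2)))
  have hel : ∀ a, ∀ x ∈ Bn n, Lv s₁ (fun x => ∑ l : t, c a l * k (x, (l : V n))) x = 0 := by
    intro a x hx
    have h3 := Lv_lin (f := fun _ => 0) (F := fun (l : t) x => k (x, (l : V n)))
      (fun l => -c a l) contDiffOn_const (fun l => slice_x hk (Bc_subset (ht l l.2))) s₁ hx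
    have h4 : (fun x => (0 : ℝ) - ∑ l : t, -c a l * k (x, (l : V n))) =
        fun x => ∑ l : t, c a l * k (x, (l : V n)) := by
      funext x
      simp
    rw [h4] at h3
    rw [h3]
    have h5 : Lv s₁ (fun _ : V n => (0 : ℝ)) x = 0 := by
      unfold Lv
      refine Finset.sum_eq_zero fun i _ => Finset.sum_eq_zero fun j _ => ?_
      have : pd i (pd j fun _ : V n => (0 : ℝ)) x = 0 := by
        unfold pd; simp
      rw [this, mul_zero]
    rw [h5, zero_sub, neg_eq_zero]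
    refine Finset.sum_eq_zero fun l _ => ?_
    rw [Lv_slice_x hk s₁ hx (Bc_subset (ht l l.2)), h1 (x, (l : V n)) ⟨hx, Bc_subset (ht l l.2)⟩,
      mul_zero]
  set e : Fin d → V n → ℝ := fun a x => ∑ l : t, c a l * k (x, (l : V n)) with he
  have hec : ∀ a, ContinuousOn (e a) (Bc n) := fun a => (hes a).continuousOn.mono Bc_subset
  set g : Fin d → V n → ℝ := fun a y => ∫ x in Bc n, e a x * k (x, y) with hg
  have hgs : ∀ a, ContDiffOn ℝ ∞ (g a) (Bn n) := fun a => (param hk (hec a)).1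
  have hgl : ∀ a, ∀ y ∈ Bn n, Lv s₂ (g a) y = 0 := fun a => Lv_param hk (hec a) h2
  set R : VV n → ℝ := fun z => k z - ∑ a, g a z.2 * e a z.1 with hR
  have hRs : ContDiffOn ℝ ∞ R (Un n) := by
    refine hk.sub (ContDiffOn.sum fun a _ => ?_)
    exact ((hgs a).comp contDiff_snd.contDiffOn fun z hz => hz.2).mul
      ((hes a).comp contDiff_fst.contDiffOn fun z hz => hz.1)
  refine ⟨d, e, g, R, hes, hgs, hel, hgl, hRs, fun z => rfl, ?_, ?_, ?_⟩
  · rintro ⟨x, y⟩ ⟨hx, hy⟩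
    rw [← Lv_slice_x hRs s₁ hx hy]
    have h3 := Lv_lin (f := fun x => k (x, y)) (F := e) (fun a => g a y) (slice_x hk hy) hes s₁ hx
    refine h3.trans ?_
    rw [Lv_slice_x hk s₁ hx hy, h1 (x, y) ⟨hx, hy⟩, zero_sub, neg_eq_zero]
    exact Finset.sum_eq_zero fun a _ => by rw [hel a x hx, mul_zero]
  · rintro ⟨x, y⟩ ⟨hx, hy⟩
    rw [← Lv_slice_y hRs s₂ hx hy]
    have h3 := Lv_lin (f := fun y => k (x, y)) (F := g) (fun a => e a x) (slice_y hk hx) hgs s₂ hy
    have h4 : (fun y => k (x, y) - ∑ a, e a x * g a y) = fun y => R (x, y) := by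
      funext y
      simp only [hR]
      congr 1
      exact Finset.sum_congr rfl fun a _ => mul_comm _ _
    rw [h4] at h3
    refine h3.trans ?_
    rw [Lv_slice_y hk s₂ hx hy, h2 (x, y) ⟨hx, hy⟩, zero_sub, neg_eq_zero]
    exact Finset.sum_eq_zero fun a _ => by rw [hgl a y hy, mul_zero]
  · intro y hy
    obtain ⟨y', hy', hle⟩ := hnet y hy
    have h3 := hc (fun x => k (x, y))
      (memLp_Bc ((slice_x hk (Bc_subset hy)).continuousOn.mono Bc_subset)) ⟨y', hy'⟩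
    exact h3.trans hle

/-- The mixed derivative of the remainder is small. -/
theorem rem_bound {K : ℕ} {ε C : ℝ} (hC : 0 < C)
    (hest : ∀ s : MF n, TS n K ε s → ∀ w : V n → ℝ, ContDiffOn ℝ ∞ w (Bn n) →
      (∀ x ∈ Bn n, Lv s w x = 0) → ∀ p ∈ Bs n (1 / 2), ∀ i,
        |pd i w p| ≤ C * √(∫ x in Bc n, w x ^ 2))
    {s₁ s₂ : MF n} (h₁ : TS n K ε s₁) (h₂ : TS n K ε s₂) {R : VV n → ℝ}
    (hR : ContDiffOn ℝ ∞ R (Un n)) (hR1 : ∀ z ∈ Un n, Lx s₁ R z = 0)
    (hR2 : ∀ z ∈ Un n, Ly s₂ R z = 0) {δ : ℝ} (hδ : 0 < δ)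
    (hb : ∀ y ∈ Bc n, ∫ x in Bc n, R (x, y) ^ 2 ≤ δ ^ 2) :
    ∀ p ∈ Bs n (1 / 2), ∀ i j, |dx i (dy j R) (p, p)| ≤ C * (C * δ * √(volume.real (Bc n))) := by
  intro p hp i j
  have hpB : p ∈ Bn n := Bc_subset (Bs_subset hp)
  rw [dx_dy_comm hR ⟨hpB, hpB⟩]
  have hd := contDiffOn_dx hR i
  have h1 : ∀ y ∈ Bc n, |dx i R (p, y)| ≤ C * δ := by
    intro y hy
    rw [← pd_slice_x (dAt hR ⟨hpB, Bc_subset hy⟩) i]
    refine (hest s₁ h₁ _ (slice_x hR (Bc_subset hy)) (fun x hx => ?_) p hp i).trans ?_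
    · rw [Lv_slice_x hR s₁ hx (Bc_subset hy)]; exact hR1 _ ⟨hx, Bc_subset hy⟩
    · refine mul_le_mul_of_nonneg_left ?_ hC.le
      rw [Real.sqrt_le_left hδ.le]
      exact hb y hy
  rw [← pd_slice_y (dAt hd ⟨hpB, hpB⟩) j]
  refine (hest s₂ h₂ _ (slice_y hd hpB) (fun y hy => ?_) p hp j).trans ?_
  · rw [Lv_slice_y hd s₂ hpB hy]; exact Ly_dx hR hR2 i _ ⟨hpB, hy⟩
  · refine mul_le_mul_of_nonneg_left ?_ hC.le
    have h2 : ∀ y ∈ Bc n, dx i R (p, y) ^ 2 ≤ (C * δ) ^ 2 := fun y hy =>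
      sq_le_sq' (by linarith [(abs_le.1 (h1 y hy)).1]) (abs_le.1 (h1 y hy)).2
    have hc : ContinuousOn (fun y => dx i R (p, y) ^ 2) (Bc n) :=
      ((slice_y hd hpB).continuousOn.mono Bc_subset).pow 2
    have h3 : ∫ y in Bc n, dx i R (p, y) ^ 2 ≤ (C * δ) ^ 2 * volume.real (Bc n) := by
      calc _ ≤ ∫ y in Bc n, (C * δ) ^ 2 := setIntegral_mono_on
            (hc.integrableOn_compact isCompact_Bc)
            (integrableOn_const isCompact_Bc.measure_lt_top.ne) measurableSet_Bc h2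
        _ = _ := by rw [setIntegral_const, smul_eq_mul, mul_comm]
    calc √(∫ y in Bc n, dx i R (p, y) ^ 2) ≤ √((C * δ) ^ 2 * volume.real (Bc n)) :=
          Real.sqrt_le_sqrt h3
      _ = C * δ * √(volume.real (Bc n)) := by
          rw [Real.sqrt_mul (sq_nonneg _), Real.sqrt_sq (by positivity)]

theorem dxdy_split {d : ℕ} {e g : Fin d → V n → ℝ} {k R : VV n → ℝ}
    (he : ∀ a, ContDiffOn ℝ ∞ (e a) (Bn n)) (hg : ∀ a, ContDiffOn ℝ ∞ (g a) (Bn n))
    (hk : ContDiffOn ℝ ∞ k (Un n)) (hR : ContDiffOn ℝ ∞ R (Un n))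
    (hRe : ∀ z, R z = k z - ∑ a, g a z.2 * e a z.1) {p : V n} (hp : p ∈ Bn n) (i j : Fin n) :
    dx i (dy j k) (p, p) = dx i (dy j R) (p, p) + ∑ a, pd i (e a) p * pd j (g a) p := by
  have h1 : ∀ x ∈ Bn n, dy j R (x, p) = dy j k (x, p) - ∑ a, pd j (g a) p * e a x := by
    intro x hx
    rw [← pd_slice_y (dAt hR ⟨hx, hp⟩) j, ← pd_slice_y (dAt hk ⟨hx, hp⟩) j]
    have h2 : (fun y => R (x, y)) = fun y => k (x, y) - ∑ a, e a x * g a y := by
      funext y
      rw [hRe]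
      congr 1
      exact Finset.sum_congr rfl fun a _ => mul_comm _ _
    rw [h2, pd_lin (fun a => e a x) (dAtB (slice_y hk hx) hp) (fun a => dAtB (hg a) hp) j]
    congr 1
    exact Finset.sum_congr rfl fun a _ => mul_comm _ _
  rw [← pd_slice_x (dAt (contDiffOn_dy hR j) ⟨hp, hp⟩) i,
    ← pd_slice_x (dAt (contDiffOn_dy hk j) ⟨hp, hp⟩) i, pd_congrB h1 hp,
    pd_lin (fun a => pd j (g a) p) (dAtB (slice_x (contDiffOn_dy hk j) hp) hp)
      (fun a => dAtB (he a) hp) i]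
  have h3 : ∑ a, pd j (g a) p * pd i (e a) p = ∑ a, pd i (e a) p * pd j (g a) p :=
    Finset.sum_congr rfl fun a _ => mul_comm _ _
  rw [h3]; ring

theorem cont_diag {f : VV n → ℝ} (hf : ContDiffOn ℝ ∞ f (Un n)) :
    ContinuousOn (fun p => f (p, p)) (Bc n) :=
  hf.continuousOn.comp (f := fun p : V n => (p, p)) (by fun_prop) fun _ hp =>
    ⟨Bc_subset hp, Bc_subset hp⟩

/-- Row ORT. -/
theorem rowORT (hI : RowINV) : RowORT := by
  intro n
  obtain ⟨K, C, ε, hC, hε, hest⟩ := int_est hI n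
  refine ⟨K, ε, hε, ?_⟩
  intro s₁ s₂ h₁ h₂ Ω hΩ hΩs hoff hst k hk hk1 hk2
  set m := volume.real (Bc n) with hm
  set I := ∫ p in Bs n (1 / 2), ∑ i, ∑ j, (s₂ p i j - s₁ p i j) * dx i (dy j k) (p, p) with hIdef
  have hh : ∀ i j p, |s₂ p i j - s₁ p i j| ≤ 2 * ε := by
    intro i j p
    have h3 := h₁.cl i j 0 (Nat.zero_le _) p
    have h4 := h₂.cl i j 0 (Nat.zero_le _) p
    rw [norm_iteratedFDeriv_zero, Real.norm_eq_abs] at h3 h4
    rw [abs_le] at h3 h4 ⊢
    constructor <;> linarith [h3.1, h3.2, h4.1, h4.2]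
  have hhc : ∀ i j, Continuous fun p => s₂ p i j - s₁ p i j := fun i j =>
    (h₂.sm i j).continuous.sub (h₁.sm i j).continuous
  have hsub : Bs n (1 / 2) ⊆ Bn n := Bs_subset.trans Bc_subset
  have key : ∀ δ : ℝ, 0 < δ → |I| ≤ (n * (n * (2 * ε * (C * (C * δ * √m))))) * m := by
    intro δ hδ
    obtain ⟨d, e, g, R, hes, hgs, hel, hgl, hRs, hRe, hR1, hR2, hRb⟩ := approx hk hk1 hk2 hδ
    have hrb := rem_bound hC hest h₁ h₂ hRs hR1 hR2 hδ hRb
    have hi1 : IntegrableOn (fun p => ∑ i, ∑ j, (s₂ p i j - s₁ p i j) * dx i (dy j R) (p, p))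
        (Bs n (1 / 2)) := by
      refine (ContinuousOn.integrableOn_compact isCompact_Bc ?_).mono_set Bs_subset
      exact continuousOn_finsetSum _ fun i _ => continuousOn_finsetSum _ fun j _ =>
        (hhc i j).continuousOn.mul (cont_diag (contDiffOn_dx (contDiffOn_dy hRs j) i))
    have hi2 : ∀ a, IntegrableOn (fun p => ∑ i, ∑ j, (s₂ p i j - s₁ p i j) *
        (pd i (e a) p * pd j (g a) p)) (Bs n (1 / 2)) := by
      intro a
      refine (ContinuousOn.integrableOn_compact isCompact_Bc ?_).mono_set Bs_subset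
      exact continuousOn_finsetSum _ fun i _ => continuousOn_finsetSum _ fun j _ =>
        (hhc i j).continuousOn.mul
          (((contDiffOn_pd isOpen_Bn (hes a) i).continuousOn.mono Bc_subset).mul
            ((contDiffOn_pd isOpen_Bn (hgs a) j).continuousOn.mono Bc_subset))
    have hI2 : I = ∫ p in Bs n (1 / 2), ((∑ i, ∑ j, (s₂ p i j - s₁ p i j) * dx i (dy j R) (p, p)) +
        ∑ a, ∑ i, ∑ j, (s₂ p i j - s₁ p i j) * (pd i (e a) p * pd j (g a) p)) := by
      rw [hIdef]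
      refine setIntegral_congr_fun (isOpen_Bs _).measurableSet fun p hp => ?_
      show ∑ i, ∑ j, (s₂ p i j - s₁ p i j) * dx i (dy j k) (p, p) = _
      have h5 : ∀ i j, dx i (dy j k) (p, p) =
          dx i (dy j R) (p, p) + ∑ a, pd i (e a) p * pd j (g a) p := fun i j =>
        dxdy_split hes hgs hk hRs hRe (hsub hp) i j
      simp only [h5, mul_add, Finset.sum_add_distrib, Finset.mul_sum]
      congr 1
      rw [Finset.sum_comm]
      have h6 : ∀ j : Fin n, ∑ i : Fin n, ∑ a, (s₂ p i j - s₁ p i j) *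
          (pd i (e a) p * pd j (g a) p) = ∑ a, ∑ i : Fin n, (s₂ p i j - s₁ p i j) *
          (pd i (e a) p * pd j (g a) p) := fun j => Finset.sum_comm
      simp only [h6]
      rw [Finset.sum_comm]
      exact Finset.sum_congr rfl fun a _ => Finset.sum_comm
    rw [hI2, integral_add hi1 (integrable_finsetSum _ fun a _ => hi2 a),
      integral_finsetSum _ fun a _ => hi2 a,
      Finset.sum_eq_zero fun a _ => ort_prod h₁ h₂ hΩ hΩs hoff hst (hes a) (hel a) (hgs a) (hgl a),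
      add_zero]
    have hbd : ∀ p ∈ Bs n (1 / 2), ‖∑ i, ∑ j, (s₂ p i j - s₁ p i j) * dx i (dy j R) (p, p)‖ ≤
        n * (n * (2 * ε * (C * (C * δ * √m)))) := by
      intro p hp
      have h7 : ∀ i ∈ (Finset.univ : Finset (Fin n)), ‖∑ j, (s₂ p i j - s₁ p i j) *
          dx i (dy j R) (p, p)‖ ≤ n * (2 * ε * (C * (C * δ * √m))) := by
        intro i _
        have h8 : ∀ j ∈ (Finset.univ : Finset (Fin n)), ‖(s₂ p i j - s₁ p i j) *
            dx i (dy j R) (p, p)‖ ≤ 2 * ε * (C * (C * δ * √m)) := by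
          intro j _
          rw [norm_mul, Real.norm_eq_abs, Real.norm_eq_abs]
          exact mul_le_mul (hh i j p) (hrb p hp i j) (abs_nonneg _) (by positivity)
        have h9 := norm_sum_le_of_le _ h8
        rw [Finset.sum_const, Finset.card_univ, Fintype.card_fin, nsmul_eq_mul] at h9
        exact h9
      have h9 := norm_sum_le_of_le _ h7
      rw [Finset.sum_const, Finset.card_univ, Fintype.card_fin, nsmul_eq_mul] at h9
      exact h9
    have hfin : volume (Bs n (1 / 2)) < ⊤ :=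
      (measure_mono Bs_subset).trans_lt isCompact_Bc.measure_lt_top
    have h10 := norm_setIntegral_le_of_norm_le_const hfin hbd
    rw [Real.norm_eq_abs] at h10
    refine h10.trans ?_
    refine mul_le_mul_of_nonneg_left ?_ (by positivity)
    exact measureReal_mono Bs_subset isCompact_Bc.measure_lt_top.ne
  by_contra hne
  have hpos : 0 < |I| := abs_pos.2 hne
  set A : ℝ := (n * (n * (2 * ε * (C * (C * √m))))) * m with hA
  have hm0 : 0 ≤ m := measureReal_nonneg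
  have hA0 : 0 ≤ A := by positivity
  have h11 := key (|I| / (2 * (A + 1))) (by positivity)
  have h12 : (n * (n * (2 * ε * (C * (C * (|I| / (2 * (A + 1))) * √m))))) * m =
      A * |I| / (2 * (A + 1)) := by rw [hA]; ring
  rw [h12, le_div_iff₀ (by positivity)] at h11
  nlinarith

end Vale.Agent.P088.HY
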