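import Vale.Agent.P088.R2.H948.Pair

/-!
# Cut-off, parametric integrals, orthogonality for products
-/

open MeasureTheory Set
open scoped ContDiff Matrix Topology

noncomputable section

namespace Vale.Agent.P088.HY

open Vale.Agent.P088.LR

variable {n : ℕ}

theorem contDiff_sq : ContDiff ℝ ∞ (sq : V n → ℝ) := by
  unfold sq
  exact ContDiff.sum fun i _ => (contDiff_apply ℝ ℝ i).pow 2

/-- The cut-off. -/
def chi (x : V n) : ℝ := Real.smoothTransition ((3 / 4 - sq x) * (16 / 3))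

theorem contDiff_chi : ContDiff ℝ ∞ (chi : V n → ℝ) :=
  Real.smoothTransition.contDiff.comp ((contDiff_const.sub contDiff_sq).mul contDiff_const)

theorem chi_one {x : V n} (hx : x ∈ Bc n) : chi x = 1 := by
  refine Real.smoothTransition.one_of_one_le ?_
  have h : sq x ≤ 9 / 16 := hx
  linarith

theorem chi_zero {x : V n} (hx : 3 / 4 ≤ sq x) : chi x = 0 := by
  refine Real.smoothTransition.zero_of_nonpos ?_
  linarith

/-- The support of the cut-off. -/
def Bd (n : ℕ) : Set (V n) := {x | sq x ≤ 3 / 4}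

theorem isCompact_Bd : IsCompact (Bd n) := by
  refine (isCompact_closedBall (0 : V n) 1).of_isClosed_subset
    (isClosed_le continuous_sq continuous_const) fun x hx => ?_
  rw [mem_closedBall_zero_iff, pi_norm_le_iff_of_nonneg zero_le_one]
  intro i
  have h1 : x i ^ 2 ≤ sq x := Finset.single_le_sum (f := fun j => x j ^ 2)
    (fun j _ => sq_nonneg _) (Finset.mem_univ i)
  have h2 : x i ^ 2 ≤ 3 / 4 := h1.trans hx
  rw [Real.norm_eq_abs, ← sq_le_one_iff_abs_le_one]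
  linarith

theorem cut_pair {E : Type*} [NormedAddCommGroup E] [NormedSpace ℝ E] {g : E × V n → ℝ}
    {O : Set E} (hO : IsOpen O) (hg : ContDiffOn ℝ ∞ g (O ×ˢ Bn n)) :
    ContDiffOn ℝ ∞ (fun z : E × V n => chi z.2 * g z) (O ×ˢ univ) := by
  rintro ⟨p, x⟩ ⟨hp, -⟩
  refine ContDiffAt.contDiffWithinAt ?_
  by_cases hx : x ∈ Bn n
  · exact (contDiff_chi.comp contDiff_snd).contDiffAt.mul
      (hg.contDiffAt ((hO.prod isOpen_Bn).mem_nhds ⟨hp, hx⟩))
  · have h1 : {z : E × V n | 3 / 4 < sq z.2} ∈ 𝓝 (p, x) := by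
      refine (isOpen_lt continuous_const (continuous_sq.comp continuous_snd)).mem_nhds ?_
      have : ¬ sq x < 1 := hx
      show 3 / 4 < sq x
      linarith
    have h2 : (fun z : E × V n => chi z.2 * g z) =ᶠ[𝓝 (p, x)] fun _ => 0 := by
      filter_upwards [h1] with z hz
      rw [chi_zero (le_of_lt hz), zero_mul]
    exact contDiffAt_const.congr_of_eventuallyEq h2

theorem cut_one {e : V n → ℝ} (he : ContDiffOn ℝ ∞ e (Bn n)) :
    ContDiff ℝ ∞ fun x => chi x * e x := by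
  rw [contDiff_iff_contDiffAt]
  intro x
  by_cases hx : x ∈ Bn n
  · exact contDiff_chi.contDiffAt.mul (he.contDiffAt (isOpen_Bn.mem_nhds hx))
  · have h1 : {z : V n | 3 / 4 < sq z} ∈ 𝓝 x := by
      refine (isOpen_lt continuous_const continuous_sq).mem_nhds ?_
      have : ¬ sq x < 1 := hx
      show 3 / 4 < sq x
      linarith
    have h2 : (fun z : V n => chi z * e z) =ᶠ[𝓝 x] fun _ => 0 := by
      filter_upwards [h1] with z hz
      rw [chi_zero (le_of_lt hz), zero_mul]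
    exact contDiffAt_const.congr_of_eventuallyEq h2

theorem param {k : VV n → ℝ} (hk : ContDiffOn ℝ ∞ k (Un n)) {e : V n → ℝ}
    (he : ContinuousOn e (Bc n)) :
    ContDiffOn ℝ ∞ (fun y => ∫ x in Bc n, e x * k (x, y)) (Bn n) ∧
      ∀ y ∈ Bn n, ∀ i, pd i (fun y => ∫ x in Bc n, e x * k (x, y)) y =
        ∫ x in Bc n, e x * dy i k (x, y) := by
  have hei : Integrable e (volume.restrict (Bc n)) := he.integrableOn_compact isCompact_Bc
  have hsw : ContDiffOn ℝ ∞ (fun z : V n × V n => k (z.2, z.1)) (Bn n ×ˢ Bn n) :=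
    hk.comp (contDiff_snd.prodMk contDiff_fst).contDiffOn fun z hz => ⟨hz.2, hz.1⟩
  have hK : ContDiffOn ℝ ∞ (Function.uncurry fun y x : V n => chi x * k (x, y))
      (Bn n ×ˢ univ) := cut_pair isOpen_Bn hsw
  have hK0 : ∀ p ∈ Bn n, ∀ x : V n, x ∉ Bd n → chi x * k (x, p) = 0 := by
    intro p _ x hx
    rw [chi_zero (le_of_lt (not_le.1 hx)), zero_mul]
  have heq : (fun y => ∫ x in Bc n, e x * k (x, y)) =
      fun y => ∫ x in Bc n, (chi x * k (x, y)) * e x := by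
    funext y
    refine setIntegral_congr_fun measurableSet_Bc fun x hx => ?_
    show e x * k (x, y) = (chi x * k (x, y)) * e x
    rw [chi_one hx]; ring
  constructor
  · rw [heq]
    exact P288.X3.contDiffOn_param isOpen_Bn isCompact_Bd hK0 hei hK
  · intro y hy i
    rw [heq]
    have h1 := P288.X3.fderiv_param isOpen_Bn isCompact_Bd hK0 hei hK hy (Pi.single i 1)
    refine h1.trans ?_
    refine setIntegral_congr_fun measurableSet_Bc fun x hx => ?_
    show fderiv ℝ (fun y => chi x * k (x, y)) y (Pi.single i 1) * e x = e x * dy i k (x, y)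
    have h2 : (fun y => chi x * k (x, y)) = fun y => k (x, y) := by
      funext y; rw [chi_one hx, one_mul]
    rw [h2, mul_comm]
    congr 1
    exact pd_slice_y (dAt hk ⟨Bc_subset hx, hy⟩) i

theorem sum_int {μ : Measure (V n)} (c : Fin n → Fin n → ℝ) (F : Fin n → Fin n → V n → ℝ)
    (hint : ∀ i j, Integrable (F i j) μ) :
    ∑ i, ∑ j, c i j * ∫ x, F i j x ∂μ = ∫ x, ∑ i, ∑ j, c i j * F i j x ∂μ := by
  rw [integral_finsetSum _ fun i _ => integrable_finsetSum _ fun j _ => (hint i j).const_mul _]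
  refine Finset.sum_congr rfl fun i _ => ?_
  rw [integral_finsetSum _ fun j _ => (hint i j).const_mul _]
  refine Finset.sum_congr rfl fun j _ => ?_
  rw [integral_const_mul]

theorem Lv_param {k : VV n → ℝ} (hk : ContDiffOn ℝ ∞ k (Un n)) {e : V n → ℝ}
    (he : ContinuousOn e (Bc n)) {s : MF n} (h : ∀ z ∈ Un n, Ly s k z = 0) :
    ∀ y ∈ Bn n, Lv s (fun y => ∫ x in Bc n, e x * k (x, y)) y = 0 := by
  intro y hy
  have h1 : ∀ i j, pd i (pd j (fun y => ∫ x in Bc n, e x * k (x, y))) y =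
      ∫ x in Bc n, e x * dy i (dy j k) (x, y) := by
    intro i j
    rw [pd_congrB (g := fun y => ∫ x in Bc n, e x * dy j k (x, y))
      (fun y' hy' => (param hk he).2 y' hy' j) hy]
    exact (param (contDiffOn_dy hk j) he).2 y hy i
  unfold Lv
  simp only [h1]
  have hint : ∀ i j, Integrable (fun x => e x * dy i (dy j k) (x, y)) (volume.restrict (Bc n)) := by
    intro i j
    exact (he.mul ((slice_x (contDiffOn_dy (contDiffOn_dy hk j) i) hy).continuousOn.mono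
      Bc_subset)).integrableOn_compact isCompact_Bc
  have h2 : ∑ i, ∑ j, s y i j * ∫ x in Bc n, e x * dy i (dy j k) (x, y) =
      ∫ x in Bc n, ∑ i, ∑ j, s y i j * (e x * dy i (dy j k) (x, y)) :=
    sum_int (fun i j => s y i j) (fun i j x => e x * dy i (dy j k) (x, y)) hint
  rw [h2]
  have h3 : ∀ x ∈ Bc n, ∑ i, ∑ j, s y i j * (e x * dy i (dy j k) (x, y)) = 0 := by
    intro x hx
    have h4 := h (x, y) ⟨Bc_subset hx, hy⟩
    have h5 : ∑ i, ∑ j, s y i j * (e x * dy i (dy j k) (x, y)) = e x * Ly s k (x, y) := by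
      unfold Ly
      rw [Finset.mul_sum]
      refine Finset.sum_congr rfl fun i _ => ?_
      rw [Finset.mul_sum]
      exact Finset.sum_congr rfl fun j _ => by ring
    rw [h5, h4, mul_zero]
  rw [setIntegral_congr_fun measurableSet_Bc h3]
  simp

theorem contDiffOn_ofReal {f : V n → ℝ} {O : Set (V n)} (hf : ContDiffOn ℝ ∞ f O) :
    ContDiffOn ℝ ∞ (fun x => (f x : ℂ)) O :=
  Complex.ofRealCLM.contDiff.comp_contDiffOn hf

theorem pd_ofReal {f : V n → ℝ} {x : V n} (hf : DifferentiableAt ℝ f x) (i : Fin n) :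
    pd i (fun x => (f x : ℂ)) x = ((pd i f x : ℝ) : ℂ) := by
  unfold pd
  have h := (Complex.ofRealCLM.hasFDerivAt (x := f x)).comp x hf.hasFDerivAt
  have h' : HasFDerivAt (fun x => (f x : ℂ)) (Complex.ofRealCLM.comp (fderiv ℝ f x)) x := h
  rw [h'.fderiv]
  rfl

/-- `div (s ∇ U) = 0` where `U = e` locally. -/
theorem dv_zero {K : ℕ} {ε : ℝ} {s : MF n} (hs : TS n K ε s) {e : V n → ℝ}
    (he : ContDiffOn ℝ ∞ e (Bn n)) (hL : ∀ x ∈ Bn n, Lv s e x = 0) {U : V n → ℂ} {Ω : Set (V n)}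
    (hΩ : IsOpen Ω) (hΩs : Ω ⊆ Bn n) (hU : ∀ x ∈ Ω, U x = (e x : ℂ)) : ∀ x ∈ Ω, dv s U x = 0 := by
  intro x hx
  have h1 : ∀ y ∈ Ω, ∀ j, pd j U y = ((pd j e y : ℝ) : ℂ) := by
    intro y hy j
    rw [pd_congr (Filter.eventually_of_mem (hΩ.mem_nhds hy) hU)]
    exact pd_ofReal (dAtB he (hΩs hy)) j
  have hd1 : ∀ i j, DifferentiableAt ℝ (fun y => s y i j) x := fun i j =>
    (hs.sm i j).differentiable (by simp) x
  have hd2 : ∀ j, DifferentiableAt ℝ (pd j e) x := fun j =>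
    dAtB (contDiffOn_pd isOpen_Bn he j) (hΩs hx)
  have h2 : ∀ i, pd i (fun y => ∑ j, (s y i j : ℂ) * pd j U y) x =
      ((∑ j, (pd i (fun y => s y i j) x * pd j e x + s x i j * pd i (pd j e) x) : ℝ) : ℂ) := by
    intro i
    have h3 : (fun y => ∑ j, (s y i j : ℂ) * pd j U y) =ᶠ[𝓝 x]
        fun y => ((∑ j, s y i j * pd j e y : ℝ) : ℂ) := by
      filter_upwards [hΩ.mem_nhds hx] with y hy
      push_cast
      exact Finset.sum_congr rfl fun j _ => by rw [h1 y hy j]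
    rw [pd_congr h3]
    have h4 : HasFDerivAt (fun y => ∑ j, s y i j * pd j e y)
        (∑ j, (s x i j • fderiv ℝ (pd j e) x + pd j e x • fderiv ℝ (fun y => s y i j) x)) x :=
      HasFDerivAt.fun_sum fun j _ => (hd1 i j).hasFDerivAt.mul (hd2 j).hasFDerivAt
    rw [pd_ofReal h4.differentiableAt]
    congr 1
    show fderiv ℝ (fun y => ∑ j, s y i j * pd j e y) x (Pi.single i 1) = _
    rw [h4.fderiv]
    simp only [_root_.sum_apply, _root_.add_apply, _root_.smul_apply, smul_eq_mul]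
    refine Finset.sum_congr rfl fun j _ => ?_
    unfold pd
    ring
  unfold dv
  simp only [h2]
  rw [← Complex.ofReal_sum, Complex.ofReal_eq_zero]
  simp only [Finset.sum_add_distrib]
  have h5 := hL x (hΩs hx)
  unfold Lv at h5
  rw [h5, add_zero, Finset.sum_comm]
  refine Finset.sum_eq_zero fun j _ => ?_
  rw [← Finset.sum_mul, hs.dv x (hΩs hx) j, zero_mul]

/-- Orthogonality for the product of two solutions. -/
theorem ort_prod {K : ℕ} {ε : ℝ} {s₁ s₂ : MF n} (h₁ : TS n K ε s₁) (h₂ : TS n K ε s₂)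
    {Ω : Set (V n)} (hΩ : IsOpen Ω) (hΩs : Ω ⊆ Bs n (1 / 2)) (hoff : ∀ x ∉ Ω, s₂ x = s₁ x)
    (hst : CF.St2 Ω s₁ s₂) {e g : V n → ℝ} (he : ContDiffOn ℝ ∞ e (Bn n))
    (hLe : ∀ x ∈ Bn n, Lv s₁ e x = 0) (hg : ContDiffOn ℝ ∞ g (Bn n))
    (hLg : ∀ x ∈ Bn n, Lv s₂ g x = 0) :
    ∫ p in Bs n (1 / 2), ∑ i, ∑ j, (s₂ p i j - s₁ p i j) * (pd i e p * pd j g p) = 0 := by
  have hΩc : Ω ⊆ Bc n := hΩs.trans Bs_subset
  have hΩn : Ω ⊆ Bn n := hΩc.trans Bc_subset
  have hU : ∀ {f : V n → ℝ}, ContDiffOn ℝ ∞ f (Bn n) →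
      ContDiff ℝ ∞ (fun x => ((chi x * f x : ℝ) : ℂ)) := fun hf =>
    Complex.ofRealCLM.contDiff.comp (cut_one hf)
  have hUe : ∀ (f : V n → ℝ), ∀ x ∈ Ω, ((chi x * f x : ℝ) : ℂ) = (f x : ℂ) := by
    intro f x hx
    rw [chi_one (hΩc hx), one_mul]
  have h := hst (fun x => ((chi x * e x : ℝ) : ℂ)) (fun x => ((chi x * g x : ℝ) : ℂ)) (hU he)
    (hU hg) (dv_zero h₁ he hLe hΩ hΩn (hUe e)) (dv_zero h₂ hg hLg hΩ hΩn (hUe g))
  have hpd : ∀ {f : V n → ℝ}, ContDiffOn ℝ ∞ f (Bn n) → ∀ x ∈ Ω, ∀ j,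
      pd j (fun x => ((chi x * f x : ℝ) : ℂ)) x = ((pd j f x : ℝ) : ℂ) := by
    intro f hf x hx j
    rw [pd_congr (Filter.eventually_of_mem (hΩ.mem_nhds hx) (hUe f))]
    exact pd_ofReal (dAtB hf (hΩn hx)) j
  have h3 : bl Ω (fun x => s₂ x - s₁ x) (fun x => ((chi x * e x : ℝ) : ℂ))
      (fun x => ((chi x * g x : ℝ) : ℂ)) =
      ((∫ x in Ω, ∑ i, ∑ j, (s₂ x i j - s₁ x i j) * (pd i e x * pd j g x) : ℝ) : ℂ) := by
    unfold bl
    rw [← integral_complex_ofReal]
    refine setIntegral_congr_fun hΩ.measurableSet fun x hx => ?_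
    show ∑ i, ∑ j, (((s₂ x - s₁ x) i j : ℝ) : ℂ) * _ * _ = ((_ : ℝ) : ℂ)
    rw [Complex.ofReal_sum]
    refine Finset.sum_congr rfl fun i _ => ?_
    rw [Complex.ofReal_sum]
    refine Finset.sum_congr rfl fun j _ => ?_
    rw [hpd he x hx i, hpd hg x hx j, Matrix.sub_apply]
    push_cast
    ring
  rw [h3, Complex.ofReal_eq_zero] at h
  rw [← h]
  refine (setIntegral_eq_of_subset_of_forall_sdiff_eq_zero (isOpen_Bs _).measurableSet hΩs ?_)
  intro x hx
  refine Finset.sum_eq_zero fun i _ => Finset.sum_eq_zero fun j _ => ?_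
  rw [hoff x hx.2, sub_self, zero_mul]

end Vale.Agent.P088.HY
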